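import Vale.Agent.P050.H869.GV

/-!
The star law: the ends of conditionally independent walks from a stationary vertex, the centre being
forgotten.
-/

set_option linter.unusedSectionVars false

namespace Vale.Agent.P050.H869.Sub

open Finset Vale.Agent.P050.H148 Vale.Agent.P050.Cart Vale.Agent.P050.M18 Vale.Agent.P050.H546
  Vale.Agent.P050.H869

variable {U : Type} [Fintype U] [DecidableEq U] {Q : U × U → ℝ}

/-- reversibility of the walk -/
theorem zp_nb_rev (hE : Edge Q) (j : ℕ) (x y : U) :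
    mm Q x * zp (nb Q) j x y = mm Q y * zp (nb Q) j y x := by
  induction j generalizing x y with
  | zero =>
    simp only [zp]
    by_cases h : x = y
    · rw [h]
    · rw [if_neg h, if_neg (fun h' => h h'.symm), mul_zero, mul_zero]
  | succ j ih =>
    rw [zp_left (nb Q) j y x]
    show mm Q x * ∑ c, zp (nb Q) j x c * nb Q c y = mm Q y * ∑ c, nb Q y c * zp (nb Q) j c x
    rw [Finset.mul_sum, Finset.mul_sum]
    refine Finset.sum_congr rfl fun c _ => ?_
    rw [← mul_assoc, ih x c, ← mul_assoc, hE.mm_mul_nb y c, hE.sym y c, ← hE.mm_mul_nb c y]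
    ring

/-- the walk is stochastic -/
theorem zp_nb_one (hE : Edge Q) (j : ℕ) (x : U) (hx : mm Q x ≠ 0) :
    ∑ y, zp (nb Q) j x y = 1 := by
  have h1 := EE_snd hE j x
  have h2 : ∀ y, EE Q j (y, x) = mm Q x * zp (nb Q) j x y := fun y => zp_nb_rev hE j y x
  simp_rw [h2] at h1
  rw [← Finset.mul_sum] at h1
  exact mul_left_cancel₀ hx (h1.trans (mul_one _).symm)

variable {V : Type} [Fintype V] [DecidableEq V]

/-- the star: the centre and the ends of the arms -/
noncomputable def SL (Q : U × U → ℝ) (m : V → ℕ) : U × (V → U) → ℝ :=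
  star (mm Q) (fun v => zp (nb Q) (m v))

theorem SL_ok (hE : Edge Q) (m : V → ℕ) : StarOk (mm Q) (fun v => zp (nb Q) (m v)) where
  p0 := hE.mm_nn
  p1 := by
    have h1 : ∑ x, mm Q x = ∑ e, Q e := by
      rw [Fintype.sum_prod_type]
      rfl
    rw [h1, hE.tot]
  g0 := fun _ x y => zp_nb_nn hE _ x y
  g1 := fun v x hx => zp_nb_one hE (m v) x hx

/-- the law of two ends -/
theorem SL_two (hE : Edge Q) (m : V → ℕ) {u v : V} (huv : u ≠ v) (x : U × U) :
    mar (SL Q m) (fun ω => (ω.2 u, ω.2 v)) x = EE Q (m u + m v) x := by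
  classical
  obtain ⟨a, b⟩ := x
  have h1 := sum_star_two (SL_ok hE m) huv fun _ s t => if (s, t) = (a, b) then 1 else 0
  have h2 : mar (SL Q m) (fun ω => (ω.2 u, ω.2 v)) (a, b) =
      ∑ ω, star (mm Q) (fun v => zp (nb Q) (m v)) ω *
        (if (ω.2 u, ω.2 v) = (a, b) then 1 else 0) := by
    unfold mar SL
    refine Finset.sum_congr rfl fun ω _ => ?_
    simp
  rw [h2, h1]
  have h3 : ∀ c, ∑ s, ∑ t, mm Q c * zp (nb Q) (m u) c s * zp (nb Q) (m v) c t *
      (if (s, t) = (a, b) then (1 : ℝ) else 0) =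
      mm Q a * (zp (nb Q) (m u) a c * zp (nb Q) (m v) c b) := by
    intro c
    rw [Finset.sum_eq_single a, Finset.sum_eq_single b]
    · rw [if_pos rfl, mul_one, zp_nb_rev hE (m u) c a, mul_assoc]
    · intro t _ ht
      rw [if_neg]
      · ring
      · simp only [Prod.mk.injEq, true_and]; exact ht
    · intro hn; exact absurd (mem_univ _) hn
    · intro s _ hs
      refine Finset.sum_eq_zero fun t _ => ?_
      rw [if_neg]
      · ring
      · simp only [Prod.mk.injEq, not_and]; exact fun hh => absurd hh hs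
    · intro hn; exact absurd (mem_univ _) hn
  simp_rw [h3]
  rw [← Finset.mul_sum, ← zp_add]
  rfl

/-- the law of the centre and one end -/
theorem SL_one (hE : Edge Q) (m : V → ℕ) (v : V) (x : U × U) :
    mar (SL Q m) (fun ω => (ω.1, ω.2 v)) x = EE Q (m v) x :=
  mar_star_one (SL_ok hE m) v x.1 x.2

theorem SL_ent_one (hE : Edge Q) (m : V → ℕ) (v : V) :
    ent (SL Q m) (fun ω => (ω.1, ω.2 v)) = hh Q (m v) := by
  unfold hh
  refine ent_law fun a => ?_
  rw [SL_one hE m v, mar_id]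

theorem SL_ent_two (hE : Edge Q) (m : V → ℕ) {u v : V} (huv : u ≠ v) :
    ent (SL Q m) (fun ω => (ω.2 u, ω.2 v)) = hh Q (m u + m v) := by
  unfold hh
  refine ent_law fun a => ?_
  rw [SL_two hE m huv, mar_id]

theorem SL_ent_fst (hE : Edge Q) (m : V → ℕ) : ent (SL Q m) (fun ω => ω.1) = aQ Q :=
  ent_star_fst (SL_ok hE m) fun c => c

/-- the entropy of all the ends -/
theorem SL_ent (hE : Edge Q) (m : V → ℕ) {u v : V} (huv : u ≠ v) :
    hh Q (m u + m v) + ∑ w ∈ (univ.erase u).erase v, (hh Q (m w) - aQ Q) ≤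
      ent (SL Q m) (fun ω => ω.2) := by
  have h0 : ∀ ω, 0 ≤ SL Q m ω := star_nonneg (SL_ok hE m)
  have e1 : ent (SL Q m) (fun ω => ω) = aQ Q + ∑ w, (hh Q (m w) - aQ Q) := by
    have h1 := ent_star (SL_ok hE m)
    have h2 : ∀ w, ent (star (mm Q) (fun v => zp (nb Q) (m v))) (fun x => (x.1, x.2 w)) =
        hh Q (m w) := fun w => SL_ent_one hE m w
    simp_rw [h2] at h1
    exact h1
  -- the centre and two ends
  have e2 : ent (SL Q m) (fun ω => (ω.1, ω.2 u, ω.2 v)) ≤ hh Q (m u) + hh Q (m v) - aQ Q := by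
    have h1 := subm h0 (A := fun ω => (ω.1, ω.2 u)) (B := fun ω => (ω.1, ω.2 v))
      (C := fun ω => (ω.1, ω.2 u, ω.2 v)) (D := fun ω => ω.1)
      (fun ω ω' hA hB => by
        simp only [Prod.mk.injEq] at hA hB ⊢
        exact ⟨hA.1, hA.2, hB.2⟩)
      (fun ω ω' hA => by
        simp only [Prod.mk.injEq] at hA
        exact hA.1)
      (fun ω ω' hB => by
        simp only [Prod.mk.injEq] at hB
        exact hB.1)
    rw [SL_ent_one hE, SL_ent_one hE, SL_ent_fst hE] at h1
    linarith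
  have e3 := subm h0 (A := fun ω => ω.2) (B := fun ω => (ω.1, ω.2 u, ω.2 v))
    (C := fun ω => ω) (D := fun ω => (ω.2 u, ω.2 v))
    (fun ω ω' hA hB => by
      simp only [Prod.mk.injEq] at hB
      exact Prod.ext hB.1 hA)
    (fun ω ω' hA => by rw [hA])
    (fun ω ω' hB => by
      simp only [Prod.mk.injEq] at hB
      rw [hB.2.1, hB.2.2])
  rw [e1, SL_ent_two hE m huv] at e3
  have e4 : ∑ w, (hh Q (m w) - aQ Q) = (hh Q (m u) - aQ Q) + ((hh Q (m v) - aQ Q) +
      ∑ w ∈ (univ.erase u).erase v, (hh Q (m w) - aQ Q)) := by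
    rw [← Finset.add_sum_erase univ _ (mem_univ u), ← Finset.add_sum_erase (univ.erase u) _
      (Finset.mem_erase.2 ⟨huv.symm, mem_univ v⟩)]
  rw [e4] at e3
  linarith

end Vale.Agent.P050.H869.Sub
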