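import Vale.Agent.P050.H869.Sub.Core
import Vale.Agent.P050.H936.Spec2
import Vale.Agent.P050.H23.GI

/-!
[T2] the star law with arbitrary arms.
-/

set_option linter.unusedSectionVars false

namespace Vale.Agent.P050.H869.Sub

open Finset Vale.Agent.P050.H148 Vale.Agent.P050.Cart Vale.Agent.P050.M18 Vale.Agent.P050.H546
  Vale.Agent.P050.H869

/-- [T2] -/
theorem star2 : H936.Star2Stmt := by
  intro V U _ _ _ _ Q hE m μ hμ
  have hS : H936.star2 Q m = SL Q m := rfl
  have hok := SL_ok hE m
  obtain ⟨-, -, hup, -⟩ := H23.gInf U Q hE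
  have hmono : ∀ j, hh Q μ ≤ hh Q (μ + j) := by
    intro j
    induction j with
    | zero => rw [add_zero]
    | succ j ih =>
      have h3 := hup (μ + j)
      have e : μ + (j + 1) = μ + j + 1 := by ring
      rw [e]
      linarith
  rw [hS]
  refine ⟨star_nonneg hok, star_total hok, fun u v huv => ⟨?_, ?_⟩⟩
  · funext x
    rw [SL_two hE _ huv]
  · have h3 := SL_ent hE m huv
    have hc2 : 2 ≤ Fintype.card V := by
      have : ({u, v} : Finset V).card = 2 := Finset.card_pair huv
      rw [← this]
      exact Finset.card_le_univ _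
    have hc : (((univ : Finset V).erase u).erase v).card = Fintype.card V - 2 := by
      rw [Finset.card_erase_of_mem (Finset.mem_erase.2 ⟨huv.symm, mem_univ v⟩),
        Finset.card_erase_of_mem (mem_univ u), Finset.card_univ]
      omega
    have h4 : (Fintype.card V - 2 : ℝ) * (hh Q μ - aQ Q) ≤
        ∑ w ∈ (univ.erase u).erase v, (hh Q (m w) - aQ Q) := by
      have h5 := Finset.card_nsmul_le_sum ((univ.erase u).erase v)
        (fun w => hh Q (m w) - aQ Q) (hh Q μ - aQ Q) (fun w _ => by
          have h6 := hmono (m w - μ)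
          rw [Nat.add_sub_cancel' (hμ w)] at h6
          linarith)
      rw [hc, nsmul_eq_mul, Nat.cast_sub hc2] at h5
      exact h5
    linarith

end Vale.Agent.P050.H869.Sub
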